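import Crest.Agent.N250.Rp.Abs
import Crest.Agent.N250.R0.Leaf
import Crest.Agent.N250.Lin.Fam

/-!
# Row 250 (helper33): the ambient constraint functions of a family `Fa`
-/

set_option autoImplicit false
open MeasureTheory Set Filter Topology Metric
open scoped ContDiff InnerProductSpace
open Crest.GeometryTopology.MCF

noncomputable section

namespace Crest.Agent.N250.Cn2

open Wr Rm Nq R0

variable {S : Mv}

section Abs

variable {P : Prm S} {J κ : Type}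

theorem sm_Zr (D : Dt P.geo J κ) : S.Sm (Rp.Zr D) := Mv.sm_of_cp fun c => sm_lf (D.Z c)

theorem inner_Zr (D : Dt P.geo J κ) (h : ∑ a, D.Z a * P.geo.n a = 1) {y : E} (hy : y ∈ S.sl 0) :
    ⟪S.n (y, 0), Rp.Zr D (y, 0)⟫_ℝ = 1 := by
  have e := congrArg (fun u : P.geo.R => u.1 ⟨y, hy⟩) h
  rw [show (∑ a, D.Z a * P.geo.n a).1 ⟨y, hy⟩ = ∑ a, (D.Z a * P.geo.n a).1 ⟨y, hy⟩ from
    val_sum P.shr.reg _ _ _] at e
  rw [inner_eq_dot]
  refine Eq.trans (Finset.sum_congr rfl fun a _ => ?_) e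
  exact (mul_comm _ _).trans (congrArg (· * S.n (y, 0) a) (Rp.Zr_apply D ⟨y, hy⟩ 0 a))

theorem norm_Zr (D : Dt P.geo J κ) (h : ∀ a, P.geo.Sy 0 (D.Z a)) :
    ∃ C : ℝ, 0 ≤ C ∧ ∀ y ∈ S.sl 0, ‖Rp.Zr D (y, 0)‖ ≤ C := by
  choose C h0 hC using fun a => (h a).bdd le_rfl
  refine ⟨∑ a, C a, Finset.sum_nonneg fun a _ => h0 a, fun y hy => ?_⟩
  rw [EuclideanSpace.norm_eq, Real.sqrt_le_left (Finset.sum_nonneg fun a _ => h0 a)]
  refine le_trans (Finset.sum_le_sum fun a _ => ?_)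
    (Finset.sum_sq_le_sq_sum_of_nonneg fun a _ => h0 a)
  rw [Rp.Zr_apply D ⟨y, hy⟩ 0 a]
  exact pow_le_pow_left₀ (norm_nonneg _) (hC a _) 2

theorem int_ga (P : Prm S) {F : S.sl 0 → ℝ} {g : E → ℝ} (h : ∀ p, F p = g p) :
    ∫ p, F p ∂P.geo.gd.nu = 4 * Real.pi * ∫ x, g x * gau 0 1 x ∂S.mu 0 := by
  rw [Lin.Gd.int_nu, ← integral_const_mul, ← P.shr.reg.imm_integral 0]
  refine integral_congr_ae (.of_forall fun p => ?_)
  have := Real.pi_pos
  have e : P.geo.gd.F p = -‖(p : E)‖ ^ 2 / 4 := congrArg (fun t => -t / 4) (mv_x2 P.shr.reg p)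
  simp only [h, e, gau, mul_one, sub_zero]
  field_simp

/-- a coercive family gives constraint functions -/
theorem cons_of [Fintype κ] {φ : κ → P.geo.R} (hφ : P.geo.Fam φ) {n : ℕ} (σ : Fin n ≃ κ)
    {Z : ST → E} {δ : ℝ} (hδ : 0 < δ) (hZ : ∀ y ∈ S.sl 0, ⟪S.n (y, 0), Z (y, 0)⟫_ℝ = 1)
    {g : κ → E → ℝ} (sm : ∀ k, ContDiff ℝ ∞ (g k)) (cs : ∀ k, HasCompactSupport (g k))
    (lin : ∀ k, Cn.Lin S Z 0 δ (lf P (φ k)) (g k)) :
    Cons S fun i y => 4 * Real.pi * (gau 0 1 y * g (σ i) y) := by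
  have hp : 0 < 4 * Real.pi := by positivity
  have fv : ∀ k (p : S.sl 0), S.fv (fun y => 4 * Real.pi * (gau 0 1 y * g k y)) (p, 0) =
      4 * Real.pi * (gau 0 1 p * (φ k).1 p) := fun k p => by
    have h1 : Cn.Lin S Z 0 δ (fun q => 4 * Real.pi * lf P (φ k) q) fun y => 4 * Real.pi * g k y :=
      fun y hy s hs => by simp only [lin k y hy s hs]; ring
    have h2 := Am.fv_lin P.shr.reg h1 hδ
      ((contDiff_const.mul (sm k)).differentiable (by simp)) p.2 (hZ p p.2)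
    rw [lf_apply] at h2
    rw [show (fun y => 4 * Real.pi * (gau 0 1 y * g k y)) =
      fun y => gau 0 1 y * (4 * Real.pi * g k y) from funext fun y => by ring, h2]
    ring
  refine ⟨fun i => contDiff_const.mul (Am.contDiff_gau.mul (sm _)),
    fun i => ((cs _).mul_left).mul_left, fun c hc => ?_, ?_⟩
  · have h := Lin.Gd.li_zero hφ.li (x := fun k => c (σ.symm k)) fun p => by
      have h1 := hc p p.2
      have h2 : 0 < 4 * Real.pi * gau 0 1 p := mul_pos hp (by unfold gau; positivity)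
      refine (mul_eq_zero.1 (Eq.trans ?_ h1)).resolve_left h2.ne'
      rw [← σ.sum_comp, Finset.mul_sum]
      exact Finset.sum_congr rfl fun i _ => by rw [fv, σ.symm_apply_apply]; ring
    exact funext fun i => by simpa using congrFun h (σ i)
  · obtain ⟨c, hc, h⟩ := Lin.Gd.Fam.coer' hφ
    refine ⟨c, hc, fun u hu ⟨K, hK, _, hK0⟩ => ?_⟩
    obtain ⟨r, hr⟩ := (hK.image continuous_fst).isBounded.subset_closedBall 0
    have hT : P.geo.gd.M.Tst (mkR P.shr.reg u hu).1 := ⟨(mkR P.shr.reg u hu).2,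
      P.cs_of_bdd (c := r) fun p hp => hK0 (p, 0) p.2 rfl fun k =>
        hp.not_ge (mem_closedBall_zero_iff.1 (hr ⟨_, k, rfl⟩))⟩
    have H := Lin.Gd.tst_h1 hT
    have h1 := h _ H
    have eg : ∀ p : S.sl 0, P.geo.gd.g1 (mkR P.shr.reg u hu).1 p = S.gam u u (p, 0) := fun p =>
      (congrFun (P.geo.gd_g1 (mkR P.shr.reg u hu)) p).trans
        (congrArg (fun w : P.geo.R => w.1 p) (mv_gam P.shr.reg hu hu))
    have ea : ∀ p : S.sl 0, P.geo.gd.c p = S.A2 (p, 0) + 1 / 2 := fun p =>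
      congrArg (fun w : P.geo.R => w.1 p + 1 / 2) (mv_a2 P.shr.reg)
    rw [Lin.Gd.n0, Lin.Gd.n1, ← integral_add H.toS2.sq H.d1, Lin.Gd.Q,
      int_ga P (g := fun x => u (x, 0) ^ 2 + S.gam u u (x, 0)) (fun p => by rw [eg]; rfl),
      int_ga P (g := fun x => S.gam u u (x, 0) - (S.A2 (x, 0) + 1 / 2) * u (x, 0) ^ 2)
        (fun p => by rw [← eg, ea, sq]; rfl)] at h1
    have e2 : ∑ i, (∫ x, S.fv (fun y => 4 * Real.pi * (gau 0 1 y * g (σ i) y)) (x, 0) * u (x, 0)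
        ∂S.mu 0) ^ 2 = ∑ k, P.geo.gd.ip (φ k).1 (mkR P.shr.reg u hu).1 ^ 2 := by
      rw [← σ.sum_comp]
      refine Finset.sum_congr rfl fun i _ => congrArg (· ^ 2) ?_
      rw [Lin.Gd.ip, int_ga P (g := fun x => lf P (φ (σ i)) (x, 0) * u (x, 0))
        (fun p => by rw [lf_apply]; rfl), ← integral_const_mul, ← P.shr.reg.imm_integral 0,
        ← P.shr.reg.imm_integral 0]
      exact integral_congr_ae (.of_forall fun p => by simp only [fv, lf_apply]; ring)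
    rw [e2]
    have h3 : 0 ≤ c⁻¹ * ∑ k, P.geo.gd.ip (φ k).1 (mkR P.shr.reg u hu).1 ^ 2 :=
      mul_nonneg (by positivity) (Finset.sum_nonneg fun _ _ => sq_nonneg _)
    refine le_of_mul_le_mul_left ?_ hp
    nlinarith [Real.pi_gt_three]

end Abs

variable {T : St S}

/-- ambient functions for the family `F` -/
structure Amb (F : Fa T) (η δ : ℝ) (g : F.I → E → ℝ) : Prop where
  δ_pos : 0 < δ
  sm : ∀ k, ContDiff ℝ ∞ (g k)
  cs : ∀ k, HasCompactSupport (g k)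
  supp : ∀ k, tsupport (g k) ⊆ cthickening η (Subtype.val '' tsupport (F.φ k).1)
  lin : ∀ k, Cn.Lin S (Rp.Zr F.D) 0 δ (lf T.P (F.φ k)) (g k)

theorem Zv_eq (F : Fa T) (p : S.sl 0) (t : ℝ) : T.Zv p = Rp.Zr F.D (p, t) := by
  ext c; exact (Rp.Zr_apply F.D p t c).symm

theorem fA_eq (F : Fa T) (g : F.I → E → ℝ) :
    F.fA g = fun i y => 4 * Real.pi * (gau 0 1 y * g (finSumFinEquiv.symm i) y) := by
  funext i y; exact mul_assoc _ _ _

theorem tsupp_fA (F : Fa T) (g : F.I → E → ℝ) (i : Fin (F.n + T.p)) :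
    tsupport (F.fA g i) ⊆ tsupport (g (finSumFinEquiv.symm i)) :=
  closure_mono fun y hy h0 => hy (by simp [Fa.fA, h0])

theorem exists_amb (F : Fa T) {η : ℝ} (hη : 0 < η) : ∃ δ g, Amb F η δ g := by
  obtain ⟨C, -, hC⟩ := norm_Zr F.D T.Zs
  have hc : IsClosed (S.sl 0) := T.P.shr.closed.preimage (Continuous.prodMk_left 0)
  have h := fun k => Cn.exists_lin T.P.shr.reg (sm_Zr F.D)
    (fun y hy => by rw [inner_Zr F.D T.Zn hy]; exact one_ne_zero) hc hC
    (IsCompact.image (F.grn.cs k) continuous_subtype_val) hη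
  choose δ hδ h using h
  choose g g1 g2 g3 g4 using fun k => h k (lf T.P (F.φ k)) (sm_lf _) fun x hx hn => by
    rw [lf_apply _ ⟨x, hx⟩]
    exact image_eq_zero_of_notMem_tsupport fun m => hn ⟨_, m, rfl⟩
  obtain ⟨d, hd, hd'⟩ : ∃ d : ℝ, 0 < d ∧ ∀ k, d ≤ δ k := by
    have := (eventually_all.2 fun k => ge_mem_nhds (hδ k)).filter_mono (nhdsWithin_le_nhds (s := Ioi 0))
    obtain ⟨d, h1, h2⟩ := (this.and self_mem_nhdsWithin).exists
    exact ⟨d, h2, h1⟩
  exact ⟨d, g, hd, g1, g2, g3, fun k y hy s hs => g4 k y hy s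
    (hs.trans (mul_le_mul_of_nonneg_right (hd' k) (by positivity)))⟩

namespace Amb

variable {F : Fa T} {η δ : ℝ} {g : F.I → E → ℝ} (h : Amb F η δ g)
include h

theorem cons : Cons S (F.fA g) := fA_eq F g ▸
  cons_of F.fam finSumFinEquiv.symm h.δ_pos (fun _ hy => inner_Zr F.D T.Zn hy) h.sm h.cs h.lin

theorem zero (k : F.I) {y : E} (hy : y ∈ S.sl 0) : g k y = 0 := Am.lin_zero (h.lin k) h.δ_pos.le hy

/-- points of the support are near the support of `φ k` -/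
theorem near (hη : 0 ≤ η) {k : F.I} {y : E} (hy : y ∈ tsupport (g k)) :
    ∃ p ∈ tsupport (F.φ k).1, dist y (p : E) ≤ η := by
  have h1 := h.supp k hy
  rw [(IsCompact.image (F.grn.cs k) continuous_subtype_val).cthickening_eq_biUnion_closedBall hη]
    at h1
  obtain ⟨_, ⟨p, hp, rfl⟩, h2⟩ := mem_iUnion₂.1 h1
  exact ⟨p, hp, h2⟩

theorem norm_le (hη : 0 ≤ η) {k : F.I} {y : E} (hy : y ∈ tsupport (g k)) : ‖y‖ ≤ T.R - 1 + η := by
  obtain ⟨p, hp, h2⟩ := h.near hη hy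
  have h3 := norm_le_norm_add_norm_sub' y (p : E)
  rw [dist_eq_norm] at h2
  linarith [(F.supp k p hp).1]

omit h in
theorem am (h : Amb F (1 / 8) δ g) : F.Am δ g where
  δ_pos := h.δ_pos
  sm := h.sm
  lin k p s hs := by rw [Zv_eq F p 0, h.lin k p p.2 s hs, lf_apply]
  supp k y hy := by
    refine ⟨by linarith [h.norm_le (by norm_num) hy], fun j => ?_⟩
    obtain ⟨p, hp, h2⟩ := h.near (by norm_num) hy
    rw [dist_eq_norm] at h2
    rcases (tube_or_off' (a := T.R - 31 / 16) (b := T.R - 2) T.P.shr.st (by linarith [T.hR])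
      (by linarith) (p := ((p : E), (0 : ℝ))) p.2 j).resolve_left ((F.supp k p hp).2 j) with h3 | h3
    · exact Or.inl (by linarith [xi_lip j y (p : E), show xi T.e j p < _ from h3])
    · refine Or.inr ?_
      have h4 := wv_lip j (p : E) y
      rw [norm_sub_rev] at h4
      have h5 : 3 < ‖wv T.e j p‖ := by
        have : 9 < r2 T.e j p := h3
        rw [r2_eq_wv] at this
        nlinarith [norm_nonneg (wv T.e j (p : E))]
      rw [r2_eq_wv]
      nlinarith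
  cons := h.cons

end Amb

/-! ### what follows from `Am` -/

section Am

variable {F : Fa T} {δ : ℝ} {g : F.I → E → ℝ}

theorem am_lin (h : F.Am δ g) (k : F.I) : Cn.Lin S (Rp.Zr F.D) 0 δ (lf T.P (F.φ k)) (g k) :=
  fun y hy s hs => by
    rw [← Zv_eq F ⟨y, hy⟩ 0, lf_apply _ ⟨y, hy⟩]; exact h.lin k ⟨y, hy⟩ s hs



theorem am_ball (h : F.Am δ g) (i : Fin (F.n + T.p)) :
    tsupport (F.fA g i) ⊆ Metric.ball 0 (T.R + 1 / 10) := fun y hy => by
  have := (h.supp _ y (tsupp_fA F g i hy)).1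
  rw [mem_ball_zero_iff]
  linarith

end Am

end Crest.Agent.N250.Cn2

namespace Crest.Agent.N250.R0

theorem amL : AmL := fun _ _ F => by
  obtain ⟨δ, g, h⟩ := Cn2.exists_amb F (η := 1 / 8) (by norm_num)
  exact ⟨δ, g, h.am⟩

end Crest.Agent.N250.R0

end
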